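import Vale.Agent.N068.Defs
import Mathlib.Combinatorics.Matroid.Circuit
import Mathlib.Tactic

/-!
# P068: augmenting paths in arbitrary matroids
-/

namespace Vale.Agent.N068

open Set Matroid

variable {α : Type*} {M N : Matroid α} {J : Set α}

lemma span_of_swaps (hJ : M.Indep J) {e : α} (he : e ∈ M.closure J) (heJ : e ∉ J) {Y : Set α}
    (h : ∀ y ∈ J, M.Indep (insert e (J \ {y})) → y ∈ Y) : e ∈ M.closure Y := by
  have hC := hJ.fundCircuit_isCircuit he heJ
  refine M.closure_subset_closure ?_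
    (hC.mem_closure_sdiff_singleton_of_mem (M.mem_fundCircuit e J))
  rintro y ⟨hy, hye⟩
  have hyJ : y ∈ J := (M.fundCircuit_subset_insert e J hy).resolve_left hye
  refine h y hyJ ?_
  have h1 := (hJ.mem_fundCircuit_iff he heJ).1 hy
  rwa [insert_sdiff_singleton_comm (Ne.symm hye)]

lemma exch {A K : Set α} (hK : M.Indep K) (hAK : A ⊆ K) {y e : α} (hy : y ∈ A)
    (he : e ∈ M.closure A) (he' : e ∉ M.closure (A \ {y})) (heK : e ∉ K) :
    M.Indep (insert e (K \ {y})) := by
  have hK' : M.Indep (K \ {y}) := hK.subset sdiff_subset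
  rw [hK'.insert_indep_iff_of_notMem (fun h => heK h.1)]
  refine ⟨mem_ground_of_mem_closure he, fun hcl => ?_⟩
  have h1 : y ∈ M.closure (insert e (A \ {y})) := by
    refine mem_closure_insert he' ?_
    rwa [insert_sdiff_singleton, insert_eq_of_mem hy]
  refine hK.notMem_closure_sdiff_of_mem (hAK hy) ?_
  refine M.closure_subset_closure_of_subset_closure (insert_subset hcl ?_) h1
  exact (sdiff_subset_sdiff_left hAK).trans (M.subset_closure _ hK'.subset_ground)

lemma notMem_cl {K : Set α} {e : α} (h : M.Indep (insert e K)) (he : e ∉ K) :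
    e ∉ M.closure K :=
  (((h.subset (subset_insert _ _)).insert_indep_iff_of_notMem he).1 h).2

lemma mem_cl {K : Set α} {e : α} (hK : M.Indep K) (heE : e ∈ M.E) (he : e ∉ K)
    (h : ¬ M.Indep (insert e K)) : e ∈ M.closure K := by
  by_contra hc
  exact h ((hK.insert_indep_iff_of_notMem he).2 ⟨heE, hc⟩)

/-- from `e` an alternating path with at most `k` double steps leads to a sink -/
def Co (M N : Matroid α) (J : Set α) : ℕ → α → Prop
  | 0, e => e ∉ J ∧ N.Indep (insert e J)
  | k + 1, e => Co M N J k e ∨ (e ∉ J ∧ ∃ y ∈ J, ∃ e', N.Indep (insert e (J \ {y})) ∧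
      M.Indep (insert e' (J \ {y})) ∧ Co M N J k e')

lemma Co.notMem : ∀ {k : ℕ} {e : α}, Co M N J k e → e ∉ J
  | 0, _, h => h.1
  | _ + 1, _, h => h.elim Co.notMem And.left

lemma Co.mono {k m : ℕ} {e : α} (h : Co M N J k e) (hkm : k ≤ m) : Co M N J m e := by
  induction hkm with
  | refl => exact h
  | step _ ih => exact Or.inl ih

lemma Co.ground : ∀ {k : ℕ} {e : α}, Co M N J k e → e ∈ N.E
  | 0, _, h => h.2.subset_ground (mem_insert _ _)
  | _ + 1, _, h => h.elim Co.ground fun ⟨_, _, _, _, h, _⟩ => h.subset_ground (mem_insert _ _)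

/-- `I` arises from `J` by a finite exchange which gains one element -/
def Aug (J I : Set α) : Prop := (J \ I).Finite ∧ (I \ J).encard = (J \ I).encard + 1

lemma Aug.of_swap {I : Set α} {y e : α} (hy : y ∈ J) (he : e ∉ J)
    (h : Aug (insert e (J \ {y})) I) : Aug J I := by
  obtain ⟨hf, hc⟩ := h
  have hne : e ≠ y := fun h => he (h ▸ hy)
  have hfin : (J \ I).Finite := by
    refine (hf.insert y).subset fun x hx => ?_
    by_cases hxy : x = y
    · exact Or.inl hxy
    · exact Or.inr ⟨Or.inr ⟨hx.1, hxy⟩, hx.2⟩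
  refine ⟨hfin, ?_⟩
  by_cases heI : e ∈ I <;> by_cases hyI : y ∈ I
  · have e1 : insert e (J \ {y}) \ I = J \ I := by
      ext x; simp only [mem_sdiff, mem_insert_iff, mem_singleton_iff]; grind
    have e2 : I \ insert e (J \ {y}) = insert y ((I \ J) \ {e}) := by
      ext x; simp only [mem_sdiff, mem_insert_iff, mem_singleton_iff]; grind
    rw [e1, e2, encard_insert_of_notMem (by simp [hy]),
      encard_sdiff_singleton_add_one (show e ∈ I \ J from ⟨heI, he⟩)] at hc
    exact hc
  · have e1 : J \ I = insert y (insert e (J \ {y}) \ I) := by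
      ext x; simp only [mem_sdiff, mem_insert_iff, mem_singleton_iff]; grind
    have e2 : I \ J = insert e (I \ insert e (J \ {y})) := by
      ext x; simp only [mem_sdiff, mem_insert_iff, mem_singleton_iff]; grind
    rw [e2, encard_insert_of_notMem (by simp), hc]
    conv_rhs => rw [e1, encard_insert_of_notMem (by simp [hne.symm])]
  · have e1 : insert e (J \ {y}) \ I = insert e (J \ I) := by
      ext x; simp only [mem_sdiff, mem_insert_iff, mem_singleton_iff]; grind
    have e2 : I \ insert e (J \ {y}) = insert y (I \ J) := by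
      ext x; simp only [mem_sdiff, mem_insert_iff, mem_singleton_iff]; grind
    rw [e1, e2, encard_insert_of_notMem (by simp [hy]),
      encard_insert_of_notMem (by simp [he])] at hc
    exact ENat.add_left_injective_of_ne_top (by simp) hc
  · have e1 : insert e (J \ {y}) \ I = insert e ((J \ I) \ {y}) := by
      ext x; simp only [mem_sdiff, mem_insert_iff, mem_singleton_iff]; grind
    have e2 : I \ insert e (J \ {y}) = I \ J := by
      ext x; simp only [mem_sdiff, mem_insert_iff, mem_singleton_iff]; grind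
    rw [e1, e2, encard_insert_of_notMem (by simp [he]),
      encard_sdiff_singleton_add_one (show y ∈ J \ I from ⟨hy, hyI⟩)] at hc
    exact hc

theorem aug_of_co (hE : M.E = N.E) (k : ℕ) : ∀ J : Set α, M.Indep J → N.Indep J → ∀ e,
    M.Indep (insert e J) → Co M N J k e → ∃ I, M.Indep I ∧ N.Indep I ∧ Aug J I := by
  induction k with
  | zero =>
    intro J _ _ e hM h
    refine ⟨insert e J, hM, h.2, ?_, ?_⟩
    · rw [sdiff_eq_empty.2 (subset_insert _ _)]
      exact finite_empty
    · rw [sdiff_eq_empty.2 (subset_insert _ _), insert_sdiff_of_notMem _ h.1]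
      simp
  | succ k ih =>
    intro J hJM hJN e0 h0M h0
    by_cases hsh : ∃ e, M.Indep (insert e J) ∧ Co M N J k e
    · obtain ⟨e, h1, h2⟩ := hsh
      exact ih J hJM hJN e h1 h2
    push Not at hsh
    rcases h0 with h0 | ⟨h0J, y1, hy1, e1, hN1, hM1, hc1⟩
    · exact absurd h0 (hsh e0 h0M)
    have h0E : e0 ∈ N.E := hN1.subset_ground (mem_insert _ _)
    have h0cl : e0 ∈ N.closure J := mem_cl hJN h0E h0J fun h =>
      hsh e0 h0M (Co.mono (k := 0) ⟨h0J, h⟩ (Nat.zero_le _))
    have h0n : e0 ∉ N.closure (J \ {y1}) := notMem_cl hN1 fun h => h0J h.1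
    have h0m : e0 ∉ M.closure J := notMem_cl h0M h0J
    -- on the side of `M` the source can always be added
    have hadd : ∀ y e', Co M N J k e' → M.Indep (insert e' (J \ {y})) →
        M.Indep (insert e0 (insert e' (J \ {y}))) := by
      intro y e' hc hi
      have h1 : e' ∈ M.closure J := mem_cl hJM (hE ▸ hc.ground) hc.notMem fun h => hsh e' h hc
      have h2 : e0 ∉ M.closure (insert e' (J \ {y})) := fun h => h0m
        (M.closure_subset_closure_of_subset_closure (insert_subset h1
          (sdiff_subset.trans (M.subset_closure J hJM.subset_ground))) h)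
      rw [hi.insert_indep_iff]
      exact Or.inl ⟨hE ▸ h0E, h2⟩
    have hne : ∀ m ≤ k, ∀ e, Co M N J m e → e ≠ e0 := by
      rintro m hm e hc rfl
      exact hsh e h0M (hc.mono hm)
    have key : ∀ m ≤ k, ∀ e, Co M N J m e → Co M N (insert e0 (J \ {y1})) m e := by
      intro m
      induction m with
      | zero =>
        intro hm e hc
        have h1 := hne 0 hm e hc
        refine ⟨fun h => h.elim h1 fun h => hc.1 h.1, ?_⟩
        have h2 := exch hc.2 (subset_insert e J) hy1 h0cl h0n
          (fun h => h.elim h1.symm h0J)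
        refine h2.subset ?_
        rintro x (rfl | rfl | hx)
        · exact Or.inr ⟨Or.inl rfl, fun h => hc.1 (h ▸ hy1)⟩
        · exact Or.inl rfl
        · exact Or.inr ⟨Or.inr hx.1, hx.2⟩
      | succ m ihm =>
        intro hm e hc
        have h1 := hne _ hm e hc
        rcases hc with hc | ⟨heJ, y, hy, e', hN, hM, hc⟩
        · exact Or.inl (ihm (by omega) e hc)
        have hy0 : ¬ N.Indep (insert e0 (J \ {y})) := fun h =>
          hsh e0 h0M (Co.mono (k := m + 1) (Or.inr ⟨h0J, y, hy, e', h, hM, hc⟩) hm)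
        have hyy : y1 ≠ y := fun h => hy0 (h ▸ hN1)
        have hy0' : y ≠ e0 := fun h => h0J (h ▸ hy)
        refine Or.inr ⟨fun h => h.elim h1 fun h => heJ h.1, y, Or.inr ⟨hy, hyy.symm⟩, e', ?_, ?_,
          ihm (by omega) e' hc⟩
        · have h2 := exch hN (subset_insert e (J \ {y})) (y := y1) ⟨hy1, hyy⟩
            (mem_cl (hJN.subset sdiff_subset) h0E (fun h => h0J h.1) hy0)
            (fun h => h0n (N.closure_subset_closure (sdiff_subset_sdiff_left sdiff_subset) h))
            (fun h => h.elim h1.symm fun h => h0J h.1)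
          refine h2.subset ?_
          rintro x (rfl | ⟨rfl | hx, hxy⟩)
          · exact Or.inr ⟨Or.inl rfl, fun h => heJ (h ▸ hy1)⟩
          · exact Or.inl rfl
          · exact Or.inr ⟨Or.inr ⟨hx.1, hxy⟩, hx.2⟩
        · refine (hadd y e' (hc.mono (by omega)) hM).subset ?_
          rintro x (rfl | ⟨rfl | hx, hxy⟩)
          · exact Or.inr (Or.inl rfl)
          · exact Or.inl rfl
          · exact Or.inr (Or.inr ⟨hx.1, hxy⟩)
    obtain ⟨I, h1, h2, h3⟩ := ih (insert e0 (J \ {y1}))
      (h0M.subset (insert_subset_insert sdiff_subset)) hN1 e1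
      (by rw [insert_comm]; exact hadd y1 e1 hc1 hM1) (key k le_rfl e1 hc1)
    exact ⟨I, h1, h2, h3.of_swap hy1 h0J⟩

/-- without a finite augmentation the set splits -/
theorem splits_of_no_aug (hE : M.E = N.E) (hM : M.Indep J) (hN : N.Indep J)
    (h : ¬ ∃ I, M.Indep I ∧ N.Indep I ∧ Aug J I) : Splits M N J := by
  let Y : Set α := {y ∈ J | ∃ k e', Co M N J k e' ∧ M.Indep (insert e' (J \ {y}))}
  have hY : Y ⊆ J := fun _ h => h.1
  refine ⟨Y, J \ Y, disjoint_sdiff_right, union_sdiff_cancel hY, subset_antisymm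
    (union_subset (closure_subset_ground _ _) (hE ▸ closure_subset_ground _ _)) fun e he => ?_⟩
  by_cases heJ : e ∈ J
  · by_cases heY : e ∈ Y
    · exact Or.inl (M.subset_closure Y (hY.trans hM.subset_ground) heY)
    · exact Or.inr (N.subset_closure _ (sdiff_subset.trans hN.subset_ground) ⟨heJ, heY⟩)
  by_cases hc : ∃ k, Co M N J k e
  · obtain ⟨k, hc⟩ := hc
    exact Or.inl (span_of_swaps hM (mem_cl hM he heJ fun hi =>
      h (aug_of_co hE k J hM hN e hi hc)) heJ fun y hy hi => ⟨hy, k, e, hc, hi⟩)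
  · refine Or.inr (span_of_swaps hN (mem_cl hN (hE ▸ he) heJ fun hi => hc ⟨0, heJ, hi⟩) heJ
      fun y hy hi => ⟨hy, ?_⟩)
    rintro ⟨-, k, e', h1, h2⟩
    exact hc ⟨k + 1, Or.inr ⟨heJ, y, hy, e', hi, h2, h1⟩⟩

lemma encard_le_of_closure {A B : Set α} (hA : M.Indep A) (hB : M.Indep B)
    (h : A ⊆ M.closure B) : (A \ B).encard ≤ (B \ A).encard := by
  have hb : M.IsBasis B (M.closure B) := hB.isBasis_closure
  obtain ⟨A', hA', hAA'⟩ := hA.subset_isBasis_of_subset h (M.closure_subset_ground B)
  have h1 := hA'.restrict_isBase.encard_sdiff_comm hb.restrict_isBase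
  exact (encard_le_encard (sdiff_subset_sdiff_left hAA')).trans
    (h1.le.trans (encard_le_encard (sdiff_subset_sdiff_right hAA')))

/-- a set which splits is strongly maximal -/
theorem strong_of_splits (hM : M.Indep J) (hN : N.Indep J) (h : Splits M N J) {I : Set α}
    (hIM : M.Indep I) (hIN : N.Indep I) : (I \ J).encard ≤ (J \ I).encard := by
  obtain ⟨A, B, hd, rfl, hcl⟩ := h
  have hA := hM.subset (subset_union_left (s := A) (t := B))
  have hB := hN.subset (subset_union_right (s := A) (t := B))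
  have h1 := encard_le_of_closure (A := I ∩ M.closure A) (hIM.subset inter_subset_left) hA
    inter_subset_right
  have h2 := encard_le_of_closure (A := I ∩ N.closure B) (hIN.subset inter_subset_left) hB
    inter_subset_right
  have h3 : I \ (A ∪ B) ⊆ (I ∩ M.closure A) \ A ∪ (I ∩ N.closure B) \ B := by
    rintro x ⟨hx, hx'⟩
    have : x ∈ M.closure A ∪ N.closure B := hcl ▸ hIM.subset_ground hx
    exact this.imp (fun h => ⟨⟨hx, h⟩, fun h => hx' (Or.inl h)⟩)
      (fun h => ⟨⟨hx, h⟩, fun h => hx' (Or.inr h)⟩)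
  have h4 : A \ (I ∩ M.closure A) ∪ B \ (I ∩ N.closure B) ⊆ (A ∪ B) \ I := by
    rintro x (⟨hx, hx'⟩ | ⟨hx, hx'⟩)
    · exact ⟨Or.inl hx, fun h => hx' ⟨h, M.subset_closure A hA.subset_ground hx⟩⟩
    · exact ⟨Or.inr hx, fun h => hx' ⟨h, N.subset_closure B hB.subset_ground hx⟩⟩
  refine (encard_le_encard h3).trans ((encard_union_le _ _).trans ((add_le_add h1 h2).trans ?_))
  rw [← encard_union_eq (hd.mono sdiff_subset sdiff_subset)]
  exact encard_le_encard h4

theorem splits_tfae (hE : M.E = N.E) (hM : M.Indep J) (hN : N.Indep J) :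
    (Splits M N J ↔ ∀ I, M.Indep I → N.Indep I → (I \ J).encard ≤ (J \ I).encard) ∧
    (Splits M N J ↔ ¬ ∃ I, M.Indep I ∧ N.Indep I ∧ (J \ I).Finite ∧
      (I \ J).encard = (J \ I).encard + 1) := by
  have h1 : (∀ I, M.Indep I → N.Indep I → (I \ J).encard ≤ (J \ I).encard) →
      ¬ ∃ I, M.Indep I ∧ N.Indep I ∧ Aug J I := by
    rintro h ⟨I, h1, h2, h3, h4⟩
    have h5 := h I h1 h2
    rw [h4] at h5
    exact absurd h5 (not_le.2 ((ENat.lt_add_one_iff h3.encard_lt_top.ne).2 le_rfl))
  exact ⟨⟨fun h I => strong_of_splits hM hN h, fun h => splits_of_no_aug hE hM hN (h1 h)⟩,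
    fun h => h1 fun I => strong_of_splits hM hN h, splits_of_no_aug hE hM hN⟩

end Vale.Agent.N068
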