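import Vale.Agent.N068.Aug
import Vale.Agent.P068.H476.Finite

/-!
# P068: a family without packable or coverable sets; failure against parallel pairs
-/

namespace Vale.Agent.N068

open Set Matroid Vale.Agent.P068

variable {α β ι : Type*}

/-- `X` is spanned by disjoint subsets of `X` in the two matroids -/
def Wave (A B : Matroid α) (X : Set α) : Prop :=
  ∃ S T : Set α, S ⊆ X ∧ T ⊆ X ∧ Disjoint S T ∧ X ⊆ A.closure S ∧ X ⊆ B.closure T

def NoWave (A B : Matroid α) : Prop := ∀ X, Wave A B X → X = ∅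

theorem exists_maxWave (A B : Matroid α) : ∃ W, Wave A B W ∧ NoWave (A ／ W) (B ／ W) := by
  let s : Set (Set α × Set α × Set α) := {p | p.2.1 ⊆ p.1 ∧ p.2.2 ⊆ p.1 ∧ Disjoint p.2.1 p.2.2 ∧
    p.1 ⊆ A.closure p.2.1 ∧ p.1 ⊆ B.closure p.2.2}
  obtain ⟨⟨W, S, T⟩, hm⟩ := zorn_le₀ s (fun c hcs hc => by
    refine ⟨(⋃ p ∈ c, p.1, ⋃ p ∈ c, p.2.1, ⋃ p ∈ c, p.2.2), ⟨?_, ?_, ?_, ?_, ?_⟩, fun p hp => ?_⟩
    · exact iUnion₂_mono fun p hp => (hcs hp).1
    · exact iUnion₂_mono fun p hp => (hcs hp).2.1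
    · rw [Set.disjoint_left]
      intro x hx hy
      obtain ⟨p, hp, hx⟩ := mem_iUnion₂.1 hx
      obtain ⟨q, hq, hy⟩ := mem_iUnion₂.1 hy
      rcases hc.total hp hq with h | h
      · exact Set.disjoint_left.1 (hcs hq).2.2.1 (h.2.1 hx) hy
      · exact Set.disjoint_left.1 (hcs hp).2.2.1 hx (h.2.2 hy)
    · exact iUnion₂_subset fun p hp => (hcs hp).2.2.2.1.trans
        (A.closure_subset_closure (subset_biUnion_of_mem (u := fun p => p.2.1) hp))
    · exact iUnion₂_subset fun p hp => (hcs hp).2.2.2.2.trans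
        (B.closure_subset_closure (subset_biUnion_of_mem (u := fun p => p.2.2) hp))
    · exact ⟨subset_biUnion_of_mem (u := fun p => p.1) hp,
        subset_biUnion_of_mem (u := fun p => p.2.1) hp,
        subset_biUnion_of_mem (u := fun p => p.2.2) hp⟩)
  obtain ⟨h1, h2, h3, h4, h5⟩ := hm.1
  refine ⟨W, ⟨S, T, h1, h2, h3, h4, h5⟩, ?_⟩
  rintro X ⟨S', T', g1, g2, g3, g4, g5⟩
  rw [contract_closure_eq] at g4 g5
  have hXW : Disjoint X W := (subset_sdiff.1 g4).2
  have key : ∀ (M : Matroid α) (U U' : Set α), W ⊆ M.closure U → X ⊆ M.closure (U' ∪ W) \ W →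
      W ∪ X ⊆ M.closure (U ∪ U') := by
    intro M U U' a b
    have a' : W ⊆ M.closure (U ∪ U') := a.trans (M.closure_subset_closure subset_union_left)
    refine union_subset a' ((b.trans sdiff_subset).trans ?_)
    rw [← M.closure_inter_ground (U' ∪ W)]
    refine M.closure_subset_closure_of_subset_closure ?_
    rintro x ⟨hx | hx, hxE⟩
    · exact M.inter_ground_subset_closure _ ⟨Or.inr hx, hxE⟩
    · exact a' hx
  have hmem : (W ∪ X, S ∪ S', T ∪ T') ∈ s := by
    refine ⟨union_subset_union h1 g1, union_subset_union h2 g2, ?_, key A S S' h4 g4,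
      key B T T' h5 g5⟩
    exact disjoint_union_left.2 ⟨disjoint_union_right.2 ⟨h3, (hXW.mono g2 h1).symm⟩,
      disjoint_union_right.2 ⟨hXW.mono g1 h2, g3⟩⟩
  have hle := hm.2 hmem ⟨subset_union_left, subset_union_left, subset_union_left⟩
  exact hXW.eq_bot_of_le (subset_union_right.trans hle.1)

theorem NoWave.delete {A B : Matroid α} (h : NoWave A B) (Z : Set α) :
    NoWave (A ＼ Z) (B ＼ Z) := by
  rintro X ⟨S, T, g1, g2, g3, g4, g5⟩
  rw [delete_closure_eq] at g4 g5
  exact h X ⟨S, T, g1, g2, g3, g4.trans (sdiff_subset.trans (A.closure_subset_closure sdiff_subset)),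
    g5.trans (sdiff_subset.trans (B.closure_subset_closure sdiff_subset))⟩

theorem indep_of_span {M : Matroid α} {S : Set α} (hS : S ⊆ M.E) (h : M.E ⊆ M✶.closure S) :
    M.Indep (M.E \ S) := by
  have h1 : M✶.Spanning S := ⟨subset_antisymm (closure_subset_ground _ _) h, hS⟩
  have h2 := h1.compl_coindep
  rwa [coindep_def, dual_dual] at h2

theorem exists_noWave {A B : Matroid α} (hA : A.E = univ) (hB : B.E = univ)
    (h : ¬ HasPackingCovering univ (fun b : Bool => if b then A else B)) :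
    ∃ A' B' : Matroid α, A'.E = B'.E ∧ A'.E.Nonempty ∧ NoWave A' B' ∧ NoWave A'✶ B'✶ := by
  obtain ⟨W, ⟨S, T, h1, h2, h3, h4, h5⟩, hW⟩ := exists_maxWave A B
  obtain ⟨Z, ⟨S', T', g1, g2, g3, g4, g5⟩, hZ⟩ := exists_maxWave (A ／ W)✶ (B ／ W)✶
  refine ⟨A ／ W ＼ Z, B ／ W ＼ Z, by simp [hA, hB], ?_, hW.delete Z, by simpa using hZ⟩
  by_contra hne
  rw [not_nonempty_iff_eq_empty, delete_ground, sdiff_eq_empty] at hne
  have hZE : Z = (A ／ W).E := subset_antisymm (g4.trans (closure_subset_ground _ _)) hne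
  have hZE' : Z = (B ／ W).E := by rw [hZE, contract_ground, contract_ground, hA, hB]
  have hZW : Z = Wᶜ := by rw [hZE, contract_ground, hA, compl_eq_univ_sdiff]
  have iA := indep_of_span (hZE ▸ g1) (hZE ▸ g4)
  have iB := indep_of_span (hZE' ▸ g2) (hZE' ▸ g5)
  rw [← hZE] at iA
  rw [← hZE'] at iB
  refine h ⟨W, Z, fun b => if b then S else T, fun b => if b then Z \ S' else Z \ T', ?_, ?_, ?_, ?_,
    ?_, ?_, ?_, ?_⟩
  · rw [hZW, union_compl_self]
  · rw [hZW]; exact disjoint_compl_right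
  · rintro (_ | _); exacts [h2, h1]
  · rintro (_ | _) <;> exact sdiff_subset
  · rintro (_ | _) (_ | _) hij
    exacts [absurd rfl hij, h3.symm, h3, absurd rfl hij]
  · rintro (_ | _)
    · exact (restrict_closure_eq B h2 (by rw [hB]; exact subset_univ _)).trans (inter_eq_right.2 h5)
    · exact (restrict_closure_eq A h1 (by rw [hA]; exact subset_univ _)).trans (inter_eq_right.2 h4)
  · have hd : Disjoint Z W := by rw [hZW]; exact disjoint_compl_left
    have hu : Z ∪ W = univ := by rw [hZW, compl_union_self]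
    rintro (_ | _)
    · exact (restrict_dual_dual B (hu.trans hB.symm) hd).symm ▸ iB
    · exact (restrict_dual_dual A (hu.trans hA.symm) hd).symm ▸ iA
  · refine subset_antisymm (iUnion_subset ?_) fun x hx => ?_
    · rintro (_ | _) <;> exact sdiff_subset
    · by_cases hxS : x ∈ S'
      · exact mem_iUnion.2 ⟨false, hx, Set.disjoint_left.1 g3 hxS⟩
      · exact mem_iUnion.2 ⟨true, hx, hxS⟩

theorem NoWave.map {A B : Matroid α} (h : NoWave A B) (hE : A.E = B.E) (f : α → β)
    (hf : InjOn f A.E) (hf' : InjOn f B.E) : NoWave (A.map f hf) (B.map f hf') := by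
  rintro X ⟨S, T, g1, g2, g3, g4, g5⟩
  rw [map_closure_eq] at g4 g5
  have key : ∀ (M : Matroid α) (U : Set β), M.E = A.E → X ⊆ f '' M.closure (f ⁻¹' U) →
      f ⁻¹' X ∩ A.E ⊆ M.closure (f ⁻¹' U ∩ A.E) := by
    rintro M U hM a x ⟨hx, hxE⟩
    obtain ⟨y, hy, hyx⟩ := a hx
    rw [← hM, closure_inter_ground, ← hf (hM ▸ mem_ground_of_mem_closure hy) hxE hyx]
    exact hy
  have h0 := h (f ⁻¹' X ∩ A.E) ⟨f ⁻¹' S ∩ A.E, f ⁻¹' T ∩ A.E,
    inter_subset_inter_left _ (preimage_mono g1), inter_subset_inter_left _ (preimage_mono g2),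
    (g3.preimage f).mono inter_subset_left inter_subset_left, key A S rfl g4, key B T hE.symm g5⟩
  rw [eq_empty_iff_forall_notMem] at h0 ⊢
  intro x hx
  obtain ⟨y, hy, rfl⟩ := g4 hx
  exact h0 y ⟨hx, mem_ground_of_mem_closure hy⟩

theorem mem_closure_of_sum' {M : ι → Matroid β} (hM : ∀ i, (M i).E = univ) {X : Set (ι × β)}
    {i : ι} {x : β} (h : (i, x) ∈ (Matroid.sum' M).closure X) :
    x ∈ (M i).closure (Prod.mk i ⁻¹' X) := by
  obtain ⟨J, hJ⟩ := (Matroid.sum' M).exists_isBasis X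
    (by rw [H476.sum'_ground hM]; exact subset_univ _)
  rw [← hJ.closure_eq_closure, hJ.indep.mem_closure_iff'] at h
  rw [sum'_isBasis_iff] at hJ
  rw [← (hJ i).closure_eq_closure, (hJ i).indep.mem_closure_iff']
  refine ⟨by rw [hM]; trivial, fun h2 => h.2 ?_⟩
  rw [sum'_indep_iff]
  intro j
  by_cases hj : j = i
  · subst hj
    convert h2 using 1
    ext y
    simp
  · convert (hJ j).indep using 1
    ext y
    simp [hj]

theorem NoWave.sum' {A B : Matroid β} (h : NoWave A B) (hA : A.E = univ) (hB : B.E = univ)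
    (ι : Type*) : NoWave (Matroid.sum' fun _ : ι => A) (Matroid.sum' fun _ : ι => B) := by
  rintro X ⟨S, T, g1, g2, g3, g4, g5⟩
  rw [eq_empty_iff_forall_notMem]
  rintro ⟨i, x⟩ hx
  have h0 := h (Prod.mk i ⁻¹' X) ⟨Prod.mk i ⁻¹' S, Prod.mk i ⁻¹' T, preimage_mono g1,
    preimage_mono g2, g3.preimage _, fun y hy => mem_closure_of_sum' (fun _ => hA) (g4 hy),
    fun y hy => mem_closure_of_sum' (fun _ => hB) (g5 hy)⟩
  exact (h0.subset (show x ∈ Prod.mk i ⁻¹' X from hx)).elim

theorem exists_pair_nat : ∃ A B : Matroid ℕ, A.E = univ ∧ B.E = univ ∧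
    ¬ HasPackingCovering univ (fun b : Bool => if b then A else B) := by
  obtain ⟨M, N, hM, hN, h⟩ := counterexample_zfc
  exact ⟨M, N✶, hM, hN, fun hp =>
    h (satisfiesIntersection_of_packingCovering M N (hM.trans hN.symm) (hM ▸ hp))⟩

theorem exists_noWave_univ (α : Type*) [Infinite α] :
    ∃ A B : Matroid α, A.E = univ ∧ B.E = univ ∧ NoWave A B ∧ NoWave A✶ B✶ := by
  classical
  obtain ⟨A0, B0, hA0, hB0, h0⟩ := exists_pair_nat
  obtain ⟨A, B, hE, ⟨a, ha⟩, h1, h2⟩ := exists_noWave hA0 hB0 h0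
  let f : ℕ → A.E := fun n => if h : n ∈ A.E then ⟨n, h⟩ else ⟨a, ha⟩
  have hf : InjOn f A.E := by
    intro x hx y hy hxy
    simpa [f, hx, hy] using hxy
  have hf' : InjOn f B.E := hE ▸ hf
  have hs : f '' A.E = univ := eq_univ_of_forall fun x => ⟨x, x.2, by simp [f]⟩
  have hA1 : (A.map f hf).E = univ := hs
  have hB1 : (B.map f hf').E = univ := by rw [map_ground, ← hE, hs]
  have k1 := (h1.map hE f hf hf').sum' hA1 hB1 α
  have k2 := (h2.map hE f hf hf').sum' hA1 hB1 α
  rw [← map_dual, ← map_dual, ← H476.sum'_dual fun _ => hA1,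
    ← H476.sum'_dual fun _ => hB1] at k2
  have : Nonempty A.E := ⟨⟨a, ha⟩⟩
  obtain ⟨e⟩ : Nonempty (α × A.E ≃ α) := by
    rw [← Cardinal.lift_mk_eq', Cardinal.mk_prod]
    simp only [Cardinal.lift_mul, Cardinal.lift_lift]
    refine Cardinal.mul_eq_left (by simp) ?_ (by simp)
    exact (by simp : _ ≤ Cardinal.aleph0).trans (by simp)
  have gA := H476.sum'_ground (ι := α) fun _ => hA1
  have gB := H476.sum'_ground (ι := α) fun _ => hB1
  refine ⟨(Matroid.sum' fun _ : α => A.map f hf).map e e.injective.injOn,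
    (Matroid.sum' fun _ : α => B.map f hf').map e e.injective.injOn, ?_, ?_,
    k1.map (gA.trans gB.symm) e _ _, ?_⟩
  · rw [map_ground, gA, image_univ, e.surjective.range_eq]
  · rw [map_ground, gB, image_univ, e.surjective.range_eq]
  · rw [map_dual, map_dual]
    exact k2.map (gA.trans gB.symm) e _ _

/-- On every infinite set and for every index set with two elements there is a family of
matroids in which no nonempty set has a packing or a covering. -/
theorem exists_family (α : Type*) [Infinite α] (ι : Type*) [Nontrivial ι] :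
    ∃ M : ι → Matroid α, (∀ i, (M i).E = univ) ∧
      ∀ X : Set α, X.Nonempty → ¬ Packs M X ∧ ¬ Covers M X := by
  classical
  obtain ⟨A, B, hA, hB, h1, h2⟩ := exists_noWave_univ α
  obtain ⟨i, j, hij⟩ := exists_pair_ne ι
  let M : ι → Matroid α := fun k => if k = i then A else if k = j then B else loopyOn univ
  have hi : M i = A := by simp [M]
  have hj : M j = B := by simp [M, hij.symm]
  have hk : ∀ k, k ≠ i → k ≠ j → M k = loopyOn univ := fun k a b => by simp [M, a, b]
  refine ⟨M, fun k => ?_, fun X hX => ⟨?_, ?_⟩⟩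
  · by_cases a : k = i
    · rw [a, hi, hA]
    by_cases b : k = j
    · rw [b, hj, hB]
    · rw [hk k a b, loopyOn_ground]
  · rintro ⟨S, s1, s2, s3⟩
    have a := s3 i
    have b := s3 j
    rw [hi, restrict_closure_eq A (s1 i) (by rw [hA]; exact subset_univ _)] at a
    rw [hj, restrict_closure_eq B (s1 j) (by rw [hB]; exact subset_univ _)] at b
    exact hX.ne_empty (h1 X ⟨S i, S j, s1 i, s1 j, s2 i j hij, inter_eq_right.1 a,
      inter_eq_right.1 b⟩)
  · rintro ⟨I, -, s2, s3⟩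
    have a := s2 i
    have b := s2 j
    rw [hi] at a
    rw [hj] at b
    refine hX.ne_empty (h2 X ⟨X \ I i, X \ I j, sdiff_subset, sdiff_subset, ?_,
      subset_closure_of_indep_dual A✶ (by rw [dual_ground, hA]; exact subset_univ _) a,
      subset_closure_of_indep_dual B✶ (by rw [dual_ground, hB]; exact subset_univ _) b⟩)
    rw [Set.disjoint_left]
    rintro x ⟨hx, hxi⟩ ⟨-, hxj⟩
    obtain ⟨k, hxk⟩ := mem_iUnion.1 (s3.symm.subset hx)
    have c := s2 k
    rw [hk k (fun h => hxi (h ▸ hxk)) (fun h => hxj (h ▸ hxk)), loopyOn_dual_eq,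
      freeOn_restrict (subset_univ _), freeOn_dual_eq, loopyOn_indep_iff] at c
    exact (c.subset hxk).elim

theorem finitary_parallel {N : Matroid (Bool × ℕ)} (hE : N.E = univ)
    (h : ∀ I, N.Indep I ↔ InjOn Prod.snd I) : N.Finitary ∧ N✶.Finitary := by
  have hN : N = (freeOn (univ : Set ℕ)).comap Prod.snd :=
    ext_indep (by simp [hE]) fun I _ => by simp [h]
  have hd : ∀ I, N✶.Indep I ↔ ∀ n, ∃ b, (b, n) ∉ I := by
    intro I
    rw [← coindep_def, coindep_iff_compl_spanning (by rw [hE]; exact subset_univ _),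
      spanning_iff_closure_eq, hE, hN, comap_closure_eq, freeOn_closure_eq, inter_univ,
      eq_univ_iff_forall]
    constructor
    · intro a n
      obtain ⟨⟨b, m⟩, hb, rfl⟩ := a (true, n)
      exact ⟨b, hb.2⟩
    · rintro a ⟨c, n⟩
      obtain ⟨b, hb⟩ := a n
      exact ⟨(b, n), ⟨trivial, hb⟩, rfl⟩
  refine ⟨⟨fun I hI => (h I).2 fun x hx y hy => ?_⟩, ⟨fun I hI => (hd I).2 fun n => ?_⟩⟩
  · exact (h _).1 (hI {x, y} (pair_subset hx hy) (toFinite _)) (by simp) (by simp)
  · obtain ⟨b, hb⟩ := (hd _).1 (hI (I ∩ {(false, n), (true, n)}) inter_subset_left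
      ((toFinite _).subset inter_subset_right)) n
    exact ⟨b, fun c => hb ⟨c, by cases b <;> simp⟩⟩

/-- Failure against the direct sum of parallel pairs. -/
theorem exists_parallel : ∃ M N : Matroid (Bool × ℕ), M.E = univ ∧ N.E = univ ∧
    (∀ I, N.Indep I ↔ InjOn Prod.snd I) ∧ ∀ J, M.Indep J → N.Indep J → ¬ Splits M N J := by
  obtain ⟨A, B, hA, hB, h⟩ := exists_pair_nat
  let K : Bool → Matroid ℕ := fun b => if b then A else B
  have hK : ∀ b, (K b).E = univ := by rintro (_ | _); exacts [hB, hA]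
  let F : Matroid (Bool × ℕ) := (freeOn (univ : Set ℕ)).comap Prod.snd
  have hG : (Matroid.sum' K).E = univ := H476.sum'_ground hK
  refine ⟨Matroid.sum' K, F, hG, by simp [F], fun I => by simp [F], ?_⟩
  rintro _ hi1 hi2 ⟨J1, J2, hd, rfl, hcl⟩
  rw [sum'_indep_iff] at hi1
  have hinj : InjOn Prod.snd (J1 ∪ J2) := (comap_indep_iff.1 hi2).2
  have hFcl : F.closure J2 = Prod.snd ⁻¹' (Prod.snd '' J2) := by
    rw [comap_closure_eq, freeOn_closure_eq, inter_univ]
  refine h (H476.Pre.packingCovering hK (P := (Prod.snd '' J2)ᶜ) (S := fun i => Prod.mk i ⁻¹' J1)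
    (I := fun i => Prod.mk i ⁻¹' J2) ⟨?_, fun i => ?_, fun i j hij => ?_, fun i x hx => ?_,
    fun i => hi1 i, fun x hx => ?_⟩)
  · rintro i x hx ⟨⟨j, y⟩, hy, rfl⟩
    have h1 := hinj (Or.inl hx) (Or.inr hy) rfl
    exact Set.disjoint_left.1 hd hx (h1 ▸ hy)
  · exact Set.disjoint_left.2 fun x hx hx2 => hx2 ⟨(i, x), hx, rfl⟩
  · exact Set.disjoint_left.2 fun x hx hx2 =>
      hij (congrArg Prod.fst (hinj (Or.inl hx) (Or.inl hx2) rfl))
  · have h1 : (i, x) ∈ (Matroid.sum' K).closure J1 ∪ F.closure J2 := by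
      rw [hcl, hG]
      trivial
    rcases h1 with h1 | h1
    · exact mem_closure_of_sum' hK h1
    · rw [hFcl] at h1
      exact absurd h1 hx
  · rw [mem_compl_iff, not_not] at hx
    obtain ⟨⟨i, y⟩, hy, rfl⟩ := hx
    exact ⟨i, hy⟩

end Vale.Agent.N068
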