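import Mathlib.Combinatorics.Matroid.Minor.Contract
import Mathlib.Combinatorics.Matroid.Sum

/-!
# P068: packings, coverings and the splitting of a common independent set
-/

namespace Vale.Agent.N068

open Matroid

/-- The restrictions `M i ↾ P` have a packing: pairwise disjoint sets `S i ⊆ P` whose closure in
`M i ↾ P` is `P`. -/
def Packs {α ι : Type*} (M : ι → Matroid α) (P : Set α) : Prop :=
  ∃ S : ι → Set α, (∀ i, S i ⊆ P) ∧ (∀ i j, i ≠ j → Disjoint (S i) (S j)) ∧
    ∀ i, ((M i) ↾ P).closure (S i) = P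

/-- The contractions `((M i)✶ ↾ C)✶` of the `M i` onto `C` have a covering: sets `I i ⊆ C`,
independent in the contraction of `M i` onto `C`, with union `C`. -/
def Covers {α ι : Type*} (M : ι → Matroid α) (C : Set α) : Prop :=
  ∃ I : ι → Set α, (∀ i, I i ⊆ C) ∧ (∀ i, (((M i)✶ ↾ C)✶).Indep (I i)) ∧ (⋃ i, I i) = C

/-- `J` is the disjoint union of `JM` and `JN`, and the closure of `JM` in `M` and the closure of
`JN` in `N` cover the ground set. -/
def Splits {α : Type*} (M N : Matroid α) (J : Set α) : Prop :=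
  ∃ JM JN : Set α, Disjoint JM JN ∧ JM ∪ JN = J ∧ M.closure JM ∪ N.closure JN = M.E

end Vale.Agent.N068
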