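import Vale.Agent.P068.Bdl.B1

/-!
# P068: a uniform matroid with packings and coverings by bases but no partition into bases
-/

namespace Vale.Agent.N068

open Set Cardinal Filter Vale.Agent.P068 Vale.Agent.P068.ZRec

variable {lev w : ℕ → ℕ}

theorem nul_biUnion {γ : Type*} {t : Set γ} (ht : t.Finite) {f : γ → Set ℕ}
    (h : ∀ x ∈ t, Nul lev w (f x)) : Nul lev w (⋃ x ∈ t, f x) := by
  induction t, ht using Set.Finite.induction_on with
  | empty => simpa using nul_empty lev w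
  | @insert a s _ _ ih =>
    rw [biUnion_insert]
    exact (h a (mem_insert _ _)).union (ih fun x hx => h x (mem_insert_of_mem _ hx))

/-- the invariant of the recursion -/
structure Inv (lev w : ℕ → ℕ) (F : Set (Set ℕ)) : Prop where
  anti : ∀ A ∈ F, ∀ B ∈ F, Nul lev w (A \ B) → A = B
  nop : ∀ t ⊆ F, t.Finite → (t.Pairwise fun A B => Nul lev w (A ∩ B)) → ¬ Nul lev w (⋃₀ t)ᶜ

def Cut (lev w : ℕ → ℕ) (I X : Set ℕ) (F : Set (Set ℕ)) : Prop :=
  ∃ B ∈ F, Nul lev w (B \ I) ∨ Nul lev w (X \ B) ∨ (Nul lev w (I \ B) ∧ Nul lev w (B \ X))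

theorem Inv.insert (hL : Levels lev w) {F : Set (Set ℕ)} (h : Inv lev w F) {P : Set ℕ}
    (h1 : ∀ B ∈ F, ¬ Nul lev w (B \ P) ∧ ¬ Nul lev w (P \ B))
    (h2 : ∀ t ⊆ F, t.Finite → ¬ Nul lev w (⋃₀ t)ᶜ → Nul lev w (P \ (⋃₀ t)ᶜ) →
      ¬ Nul lev w ((⋃₀ t)ᶜ \ P)) : Inv lev w (insert P F) := by
  refine ⟨?_, fun t ht hf hp => ?_⟩
  · rintro A (rfl | hA) B (rfl | hB) hn
    exacts [rfl, absurd hn (h1 B hB).2, absurd hn (h1 A hA).1, h.anti A hA B hB hn]
  have hs : t \ {P} ⊆ F := fun A hA => (ht hA.1).resolve_left hA.2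
  have hn := h.nop _ hs (hf.subset sdiff_subset) (hp.mono sdiff_subset)
  by_cases hP : P ∈ t
  · intro hc
    refine h2 _ hs (hf.subset sdiff_subset) hn ?_ (hc.mono hL ?_)
    · refine (nul_biUnion (hf.subset (sdiff_subset (t := {P}))) (f := fun A => P ∩ A)
        fun A hA => hp hP hA.1 (Ne.symm hA.2)).mono hL ?_
      rintro x ⟨hx, hx2⟩
      obtain ⟨A, hA, hxA⟩ := not_notMem.1 hx2
      exact mem_iUnion₂.2 ⟨A, hA, hx, hxA⟩
    · rintro x ⟨hx, hxP⟩ ⟨A, hA, hxA⟩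
      exact hx ⟨A, ⟨hA, fun e => hxP (e ▸ hxA)⟩, hxA⟩
  · rwa [sdiff_singleton_eq_self hP] at hn

theorem Inv.step (hL : Levels lev w) (g : Good (ZR lev w)) {F : Set (Set ℕ)} (h : Inv lev w F)
    (hF : #F < 𝔠) {I X : Set ℕ} (hIX : I ⊆ X) (hc : ¬ Cut lev w I X F) :
    ∃ P, Inv lev w (Insert.insert P F) ∧ Cut lev w I X (Insert.insert P F) := by
  classical
  let C : Set (Set ℕ) := F ∪ range fun l : List F => (⋃ x ∈ l, (x : Set ℕ))ᶜ
  have hC : #C < 𝔠 := by
    refine (mk_union_le _ _).trans_lt (add_lt_of_lt aleph0_le_continuum hF ?_)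
    exact (mk_range_le.trans (mk_list_le_max _)).trans_lt (max_lt aleph0_lt_continuum hF)
  have hmem : ∀ t ⊆ F, t.Finite → (⋃₀ t)ᶜ ∈ C := by
    intro t ht hf
    have hf' : (Subtype.val ⁻¹' t : Set F).Finite := hf.preimage Subtype.val_injective.injOn
    refine Or.inr ⟨hf'.toFinset.toList, ?_⟩
    ext x
    simp only [mem_compl_iff, mem_iUnion, Finset.mem_toList, Finite.mem_toFinset, mem_preimage,
      mem_sUnion, exists_prop]
    exact not_congr ⟨fun ⟨A, a, b⟩ => ⟨A, a, b⟩, fun ⟨A, a, b⟩ => ⟨⟨A, ht a⟩, a, b⟩⟩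
  have n1 : ∀ B ∈ F, ¬ ZR lev w B I := fun B hB hn => hc ⟨B, hB, Or.inl hn⟩
  have n2 : ∀ B ∈ F, ¬ ZR lev w X B := fun B hB hn => hc ⟨B, hB, Or.inr (Or.inl hn)⟩
  by_cases hXI : ZR lev w X I
  · obtain ⟨P, -, hPI, hP⟩ := g.generic (empty_subset I) C hC
    refine ⟨P, h.insert hL (fun B hB => ⟨fun hn => ?_, fun hn => ?_⟩) fun t ht hf a _ c => ?_,
      P, mem_insert _ _, Or.inl (g.of_subset hPI)⟩
    · exact n1 B hB (g.trans hn (g.of_subset hPI))
    · exact n2 B hB (g.trans hXI ((hP B (Or.inl hB)).2 hn))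
    · have := (hP _ (hmem t ht hf)).1 c
      rw [ZR, sdiff_empty] at this
      exact a this
  · obtain ⟨P, hIP, hPX, hP⟩ := g.generic hIX C hC
    refine ⟨P, h.insert hL (fun B hB => ⟨fun hn => ?_, fun hn => ?_⟩) fun t ht hf _ b c => ?_,
      P, mem_insert _ _, Or.inr (Or.inr ⟨g.of_subset hIP, g.of_subset hPX⟩)⟩
    · exact n1 B hB ((hP B (Or.inl hB)).1 hn)
    · exact n2 B hB ((hP B (Or.inl hB)).2 hn)
    · exact hXI (g.trans ((hP _ (hmem t ht hf)).2 b) ((hP _ (hmem t ht hf)).1 c))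

theorem Inv.sUnion {S₀ : Set (Set ℕ)} (h0 : Inv lev w S₀) (c : Set (Set (Set ℕ)))
    (hc : IsChain (· ⊆ ·) c) (hV : ∀ s ∈ c, Inv lev w s ∧ S₀ ⊆ s) : Inv lev w (S₀ ∪ ⋃₀ c) := by
  have key : ∀ t : Set (Set ℕ), t.Finite → t ⊆ S₀ ∪ ⋃₀ c →
      ∃ s, (s = S₀ ∨ s ∈ c) ∧ t ⊆ s := by
    intro t ht
    induction t, ht using Set.Finite.induction_on with
    | empty => exact fun _ => ⟨S₀, Or.inl rfl, empty_subset _⟩
    | @insert a t _ _ ih =>
      intro h
      obtain ⟨s, hs, hts⟩ := ih ((subset_insert _ _).trans h)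
      have h0s : S₀ ⊆ s := hs.elim (fun e => e ▸ subset_rfl) fun e => (hV s e).2
      rcases h (mem_insert _ _) with ha | ⟨s', hs', ha⟩
      · exact ⟨s, hs, insert_subset (h0s ha) hts⟩
      rcases hs with rfl | hs
      · exact ⟨s', Or.inr hs', insert_subset ha (hts.trans (hV s' hs').2)⟩
      rcases hc.total hs hs' with e | e
      · exact ⟨s', Or.inr hs', insert_subset ha (hts.trans e)⟩
      · exact ⟨s, Or.inr hs, insert_subset (e ha) hts⟩
  have key2 : ∀ t : Set (Set ℕ), t.Finite → t ⊆ S₀ ∪ ⋃₀ c → ∃ s, Inv lev w s ∧ t ⊆ s := by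
    intro t ht h
    obtain ⟨s, hs, hts⟩ := key t ht h
    exact ⟨s, hs.elim (fun e => e ▸ h0) fun e => (hV s e).1, hts⟩
  refine ⟨fun A hA B hB hn => ?_, fun t ht hf hp => ?_⟩
  · obtain ⟨s, hs, hts⟩ := key2 {A, B} (toFinite _) (pair_subset hA hB)
    exact hs.anti A (hts (by simp)) B (hts (by simp)) hn
  · obtain ⟨s, hs, hts⟩ := key2 t hf ht
    exact hs.nop t hts hf hp

theorem exists_inv (hL : Levels lev w) (g : Good (ZR lev w)) {S₀ : Set (Set ℕ)}
    (hS : S₀.Countable) (h0 : Inv lev w S₀) :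
    ∃ F, Inv lev w F ∧ S₀ ⊆ F ∧ ∀ I X, I ⊆ X → Cut lev w I X F := by
  have hcard : #(Set ℕ × Set ℕ) = 𝔠 := by
    simp only [mk_set, mk_eq_aleph0, two_power_aleph0, lift_id, mk_prod, continuum_mul_self]
  let T : Type := (𝔠 : Cardinal.{0}).ord.ToType
  have hT : #T = 𝔠 := by simp only [mk_toType, card_ord, T]
  obtain ⟨e⟩ : Nonempty (T ≃ Set ℕ × Set ℕ) := Cardinal.eq.mp (hT.trans hcard.symm)
  obtain ⟨S, h1, h2, h3⟩ := build (D := Set ℕ) (T := T)
    (fun t => by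
      have := mk_Iio_lt t (by simp only [mk_toType, card_ord, Ordinal.type_toType, T])
      rwa [hT] at this)
    (Inv lev w) S₀ hS (fun c hc hcV => h0.sUnion c hc hcV)
    (fun t S => (e t).1 ⊆ (e t).2 → Cut lev w (e t).1 (e t).2 S)
    (fun t S S' hSS' h hh => by
      obtain ⟨B, hB, hb⟩ := h hh
      exact ⟨B, hSS' hB, hb⟩)
    (by
      intro t S hv hm _
      by_cases hc : (e t).1 ⊆ (e t).2 → Cut lev w (e t).1 (e t).2 S
      · exact ⟨S, subset_rfl, hv, hc, by simp⟩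
      · rw [Classical.not_imp] at hc
        obtain ⟨P, a, b⟩ := hv.step hL g (by simpa using hm.mk_image id) hc.1 hc.2
        refine ⟨_, subset_insert P S, a, fun _ => b, (countable_singleton P).mono ?_⟩
        exact fun x hx => hx.1.resolve_right hx.2)
  refine ⟨S, h1, h2, fun I X => ?_⟩
  simpa using h3 (e.symm (I, X))

theorem exists_pieces (hu : ¬ Nul lev w univ) :
    ∃ π : ℕ → ℕ, ∀ n, ¬ Nul lev w (π ⁻¹' {n}) := by
  simp only [Nul, not_forall, not_eventually] at hu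
  obtain ⟨j, hj⟩ := hu
  obtain ⟨φ, hφ, h⟩ := extraction_of_frequently_atTop hj
  refine ⟨fun m => (Nat.unpair (Function.invFun φ (lev m))).1, fun n hn => ?_⟩
  obtain ⟨N, hN⟩ := eventually_atTop.1 (hn j)
  refine h (Nat.pair n N) ?_
  have h1 := hN (φ (Nat.pair n N)) ((Nat.right_le_pair n N).trans hφ.le_apply)
  convert h1 using 2
  unfold lcnt
  congr 1
  ext m
  simp only [mem_inter_iff, mem_univ, true_and, mem_preimage, mem_singleton_iff, iff_and_self]
  intro hm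
  rw [show lev m = φ (Nat.pair n N) from hm, Function.leftInverse_invFun hφ.injective,
    Nat.unpair_pair]

/-- the patterns of the starting family -/
def pat : Option (Option ℕ) → Set ℕ
  | none => {n | n % 3 ≠ 1}
  | some none => {n | n % 3 ≠ 0}
  | some (some i) => {n | n / 3 = i ∧ n % 3 ≠ 2}

theorem pat_anti {a b : Option (Option ℕ)} (h : pat a ⊆ pat b) : a = b := by
  rcases a with _ | _ | i <;> rcases b with _ | _ | j
  · rfl
  · exact absurd (@h 0 (by simp [pat])) (by simp [pat])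
  · exact absurd (@h 2 (by simp [pat])) (by simp [pat])
  · exact absurd (@h 1 (by simp [pat])) (by simp [pat])
  · rfl
  · exact absurd (@h 2 (by simp [pat])) (by simp [pat])
  · exact absurd (@h (3 * i + 1) ⟨by omega, by omega⟩) (by simp [pat])
  · exact absurd (@h (3 * i) ⟨by omega, by omega⟩) (by simp [pat])
  · have := (@h (3 * i) ⟨by omega, by omega⟩).1
    congr 2
    omega

theorem pat_nop {s : Set (Option (Option ℕ))}
    (hd : ∀ a ∈ s, ∀ b ∈ s, ∀ n, n ∈ pat a → n ∈ pat b → a = b) :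
    ¬ ∀ n, ∃ a ∈ s, n ∈ pat a := by
  intro h
  obtain ⟨a, ha, h2⟩ := h 2
  rcases a with _ | _ | i
  · obtain ⟨b, hb, h1⟩ := h 1
    rcases b with _ | _ | j
    · simp [pat] at h1
    · simpa using hd _ ha _ hb 2 h2 (by simp [pat])
    · simpa using hd _ ha _ hb 0 (by simp [pat]) (by simpa [pat] using h1)
  · obtain ⟨b, hb, h1⟩ := h 0
    rcases b with _ | _ | j
    · simpa using hd _ ha _ hb 2 h2 (by simp [pat])
    · simp [pat] at h1
    · simpa using hd _ ha _ hb 1 (by simp [pat]) (by simpa [pat] using h1)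
  · simp [pat] at h2

theorem exists_noPartition : ∃ U : Matroid ℕ, U.E = Set.univ ∧
    (∀ X, U.Indep X ∨ U.Spanning X) ∧
    (∃ D : ℕ → Set ℕ, (∀ i, U.IsBase (D i)) ∧ ∀ i j, i ≠ j → Disjoint (D i) (D j)) ∧
    (∃ B B', U.IsBase B ∧ U.IsBase B' ∧ B ∪ B' = Set.univ) ∧
    ∀ (k : ℕ) (B : Fin k → Set ℕ), (∀ i, U.IsBase (B i)) →
      (∀ i j, i ≠ j → Disjoint (B i) (B j)) → ⋃ i, B i ≠ Set.univ := by
  obtain ⟨lev, w, hL, -, hu, hs⟩ := exists_zideal
  have g := zr_good hL hu hs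
  obtain ⟨π, hπ⟩ := exists_pieces hu
  have hn : ∀ {A : Set ℕ} (n : ℕ), (∀ m, π m = n → m ∈ A) → ¬ Nul lev w A :=
    fun n h hA => hπ n (hA.mono hL h)
  have h0 : Inv lev w (range fun a => π ⁻¹' pat a) := by
    constructor
    · rintro _ ⟨a, rfl⟩ _ ⟨b, rfl⟩ h
      rw [pat_anti (a := a) (b := b) fun n ha => by_contra fun hb =>
        hn (A := π ⁻¹' pat a \ π ⁻¹' pat b) n
          (fun m hm => ⟨show π m ∈ pat a from hm ▸ ha, fun c => hb (hm ▸ c)⟩) h]
    · intro t ht _ hp hc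
      refine pat_nop (s := {a | π ⁻¹' pat a ∈ t}) (fun a ha b hb n h1 h2 => ?_) fun n => ?_
      · by_cases e : π ⁻¹' pat a = π ⁻¹' pat b
        · refine pat_anti fun k hk => by_contra fun hb => hn (A := ∅) k (fun m hm => hb ?_)
            (nul_empty lev w)
          exact hm ▸ e.subset (show π m ∈ pat a from hm ▸ hk)
        · exact absurd (hp ha hb e) (hn n fun m hm =>
            ⟨show π m ∈ pat a from hm ▸ h1, show π m ∈ pat b from hm ▸ h2⟩)
      · by_contra hcon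
        refine hn n (fun m hm => ?_) hc
        rintro ⟨A, hA, hmA⟩
        obtain ⟨a, rfl⟩ := ht hA
        exact hcon ⟨a, hA, hm ▸ hmA⟩
  obtain ⟨F, hF, hsub, hcut⟩ := exists_inv hL g (countable_range _) h0
  obtain ⟨U, hE, hb, hun⟩ := exists_uniform_matroid_nul hL F hF.anti hcut
  have span : ∀ (a) (s : Set ℕ) (n), pat a ⊆ s → n ∈ s → n ∉ pat a →
      ∃ D, U.IsBase D ∧ D ⊆ π ⁻¹' s := by
    intro a s n h1 h2 h3
    rcases hun (π ⁻¹' s) with h | h
    · obtain ⟨D, hD, hsD⟩ := h.exists_isBase_superset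
      obtain ⟨B, hB, b1, -⟩ := hb D hD
      have e := hF.anti _ (hsub ⟨a, rfl⟩) B hB
        (b1.mono hL (sdiff_subset_sdiff_left ((preimage_mono h1).trans hsD)))
      subst e
      exact absurd b1 (hn n fun m hm =>
        ⟨hsD (show π m ∈ s from hm ▸ h2), fun c => h3 (hm ▸ c)⟩)
    · exact h.exists_isBase_subset
  have ind : ∀ (a) (s : Set ℕ) (n), s ⊆ pat a → n ∉ s → n ∈ pat a →
      ∃ D, U.IsBase D ∧ π ⁻¹' s ⊆ D := by
    intro a s n h1 h2 h3
    rcases hun (π ⁻¹' s) with h | h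
    · exact h.exists_isBase_superset
    · obtain ⟨D, hD, hsD⟩ := h.exists_isBase_subset
      obtain ⟨B, hB, -, b1⟩ := hb D hD
      have e := hF.anti B hB _ (hsub ⟨a, rfl⟩)
        (b1.mono hL (sdiff_subset_sdiff_right (hsD.trans (preimage_mono h1))))
      subst e
      exact absurd b1 (hn n fun m hm =>
        ⟨show π m ∈ pat a from hm ▸ h3, fun c => h2 (hm ▸ hsD c)⟩)
  refine ⟨U, hE, hun, ?_, ?_, fun k B hB hd hU => ?_⟩
  · choose D hD hDs using fun i => span (some (some i)) {n | n / 3 = i} (3 * i + 2)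
      (fun n hn => hn.1) (show (3 * i + 2) / 3 = i by omega) (fun h => h.2 (by omega))
    refine ⟨D, hD, fun i j hij => Set.disjoint_left.2 fun x hi hj => hij ?_⟩
    exact (show π x / 3 = i from hDs i hi).symm.trans (hDs j hj)
  · obtain ⟨B, hB, h1⟩ := ind none {n | n % 3 ≠ 1 ∧ n ≠ 2} 2 (fun n hn => hn.1) (by simp)
      (by simp [pat])
    obtain ⟨B', hB', h2⟩ := ind (some none) {n | n % 3 ≠ 0 ∧ n ≠ 5} 5 (fun n hn => hn.1) (by simp)
      (by simp [pat])
    refine ⟨B, B', hB, hB', eq_univ_of_forall fun x => ?_⟩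
    by_cases hx : π x % 3 ≠ 1 ∧ π x ≠ 2
    · exact Or.inl (h1 hx)
    · exact Or.inr (h2 ⟨by omega, by omega⟩)
  · choose f hf h1 h2 using fun i => hb (B i) (hB i)
    refine hF.nop (range f) (range_subset_iff.2 hf) (finite_range f) ?_ ?_
    · rintro _ ⟨i, rfl⟩ _ ⟨j, rfl⟩ hij
      refine ((h2 i).union (h2 j)).mono hL fun x hx => ?_
      by_cases hxi : x ∈ B i
      · exact Or.inr ⟨hx.2, Set.disjoint_left.1 (hd i j fun e => hij (e ▸ rfl)) hxi⟩
      · exact Or.inl ⟨hx.1, hxi⟩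
    · refine (nul_biUnion (finite_univ (α := Fin k)) fun i _ => h1 i).mono hL fun x hx => ?_
      obtain ⟨i, hi⟩ := mem_iUnion.1 (hU.symm.subset (mem_univ x))
      exact mem_iUnion₂.2 ⟨i, mem_univ _, hi, fun c => hx ⟨f i, ⟨i, rfl⟩, c⟩⟩

end Vale.Agent.N068
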